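import Vale.Agent.P122W36.Local
import Vale.Agent.P218GA.Jac

/-! The induced surface measure exists, is unique, and is the normalised two-dimensional Hausdorff
measure on the surface. -/

open MeasureTheory Set Topology Filter
open scoped ENNReal NNReal ContDiff RealInnerProductSpace

namespace Vale.Agent.P122W36

variable {M : Set R3} {U : Set R2} {r : R2 → R3}

lemma IsParam.measurableSet_image (h : IsParam M U r) {A : Set R2} (hAU : A ⊆ U)
    (hA : MeasurableSet A) : MeasurableSet (r '' A) :=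
  hA.image_of_continuousOn_injOn (h.smooth.continuousOn.mono hAU) (h.injOn.mono hAU)

/-- the area formula -/
theorem IsParam.area (h : IsParam M U r) {A : Set R2} (hAU : A ⊆ U) (hA : MeasurableSet A) :
    (Measure.euclideanHausdorffMeasure 2 : Measure R3) (r '' A) =
      ∫⁻ q in A, ENNReal.ofReal √(firstForm r q).det := by
  have h1 := (P218GA.isJac_volume (U := R2) (V := R3) (m := 2) (by simp)).measure_image h.isOpen
    (h.smooth.of_le (by simp)) h.immersion hA hAU (h.injOn.mono hAU)
  rw [P218GA.hausdorff_eq_smul, Measure.smul_apply] at h1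
  have h2 : ∀ q : R2, ENNReal.ofReal ((P218GA.cH 2 : ℝ) *
      ((fderiv ℝ r q : R2 →L[ℝ] R3) : R2 →ₗ[ℝ] R3).normDet) =
      (P218GA.cH 2 : ℝ≥0∞) * ENNReal.ofReal √(firstForm r q).det := by
    intro q
    rw [ENNReal.ofReal_mul (P218GA.cH 2).coe_nonneg, ENNReal.ofReal_coe_nnreal,
      P218GA.normDet_eq_sqrt _ (EuclideanSpace.basisFun (Fin 2) ℝ), firstForm_eq_gram]
    congr 5
    funext i
    simp [pd]
  simp only [h2] at h1
  rw [lintegral_const_mul' _ _ ENNReal.coe_ne_top, ENNReal.smul_def, smul_eq_mul] at h1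
  exact (ENNReal.mul_right_inj (by simpa using (P218GA.cH_pos 2).ne') ENNReal.coe_ne_top).1 h1

lemma IsSurface.exists_cover (hM : IsSurface M) :
    ∃ (c : Set R3) (U : R3 → Set R2) (r : R3 → R2 → R3), c.Countable ∧
      (∀ p ∈ c, IsParam M (U p) (r p)) ∧ M = ⋃ p ∈ c, r p '' U p := by
  choose! U r h1 h2 using hM
  obtain ⟨c, hcM, hcc, hcov⟩ := TopologicalSpace.countable_cover_nhdsWithin
    (s := M) (f := fun p => r p '' U p) (fun p hp => by
      obtain ⟨V, hV, hMV⟩ := (h1 p hp).relOpen
      have hpV : p ∈ M ∩ V := hMV ▸ h2 p hp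
      rw [hMV]
      exact inter_mem_nhdsWithin M (hV.mem_nhds hpV.2))
  refine ⟨c, U, r, hcc, fun p hp => h1 p (hcM hp), hcov.antisymm ?_⟩
  refine iUnion₂_subset fun p hp => ?_
  rintro _ ⟨u, hu, rfl⟩
  exact (h1 p (hcM hp)).mem hu

lemma IsSurface.measurableSet (hM : IsSurface M) : MeasurableSet M := by
  obtain ⟨c, U, r, hc, h1, h2⟩ := hM.exists_cover
  rw [h2]
  exact MeasurableSet.biUnion hc fun p hp =>
    (h1 p hp).measurableSet_image le_rfl (h1 p hp).isOpen.measurableSet

theorem IsSurface.isSurfaceMeasure (hM : IsSurface M) :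
    IsSurfaceMeasure M ((Measure.euclideanHausdorffMeasure 2 : Measure R3).restrict M) := by
  refine ⟨?_, fun U r h A hAU hA => ?_⟩
  · rw [Measure.restrict_apply hM.measurableSet.compl, compl_inter_self, measure_empty]
  · rw [Measure.restrict_eq_self, h.area hAU hA]
    rintro _ ⟨u, hu, rfl⟩
    exact h.mem (hAU hu)

theorem IsSurface.unique (hM : IsSurface M) {σ σ' : Measure R3} (h : IsSurfaceMeasure M σ)
    (h' : IsSurfaceMeasure M σ') : σ = σ' := by
  obtain ⟨c, U, r, hc, h1, h2⟩ := hM.exists_cover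
  have e1 : σ.restrict M = σ := Measure.restrict_eq_self_of_ae_mem h.1
  have e2 : σ'.restrict M = σ' := Measure.restrict_eq_self_of_ae_mem h'.1
  rw [← e1, ← e2]
  conv_lhs => rw [h2]
  conv_rhs => rw [h2]
  rw [Measure.restrict_biUnion_congr hc]
  intro p hp
  have hp' := h1 p hp
  refine Measure.ext fun B hB => ?_
  have h3 : MeasurableSet ((U p).domRestrict (r p) ⁻¹' B) := hp'.embedding.continuous.measurable hB
  have h4 : MeasurableSet (Subtype.val '' ((U p).domRestrict (r p) ⁻¹' B)) :=
    (MeasurableEmbedding.subtype_coe hp'.isOpen.measurableSet).measurableSet_image' h3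
  have h5 : Subtype.val '' ((U p).domRestrict (r p) ⁻¹' B) = r p ⁻¹' B ∩ U p := by
    ext y
    constructor
    · rintro ⟨z, hz, rfl⟩
      exact ⟨hz, z.2⟩
    · rintro ⟨h1, h2⟩
      exact ⟨⟨y, h2⟩, h1, rfl⟩
  rw [h5] at h4
  rw [Measure.restrict_apply hB, Measure.restrict_apply hB, ← image_preimage_inter,
    h.2 _ _ hp' _ inter_subset_right h4, h'.2 _ _ hp' _ inter_subset_right h4]

end Vale.Agent.P122W36
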