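import Vale.Agent.P122W36.Zero
import Vale.Agent.P122W36.Meas
import Vale.Agent.P122.FI.Examples

/-! Positive curvature: equivalent forms, examples, and the passage to regular zero sets. -/

open MeasureTheory Set Topology Filter
open scoped ENNReal NNReal ContDiff RealInnerProductSpace

namespace Vale.Agent.P122W36

open Vale.Agent.P122

variable {M S : Set R3} {U : Set R2} {r : R2 → R3} {q : R2}

lemma IsParam.definite_iff_gauss (h : IsParam M U r) (hq : q ∈ U) :
    ((secondForm r q).PosDef ∨ (-secondForm r q).PosDef) ↔ 0 < gaussCurvature r q := by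
  rw [definite_iff_det (secondForm_isHermitian (h.contDiffAt hq)), gaussCurvature,
    div_pos_iff_of_pos_right (det_firstForm_pos (h.immersion q hq))]

theorem positivelyCurved_iff (hM : IsSurface M) (hS : S ⊆ M) : PositivelyCurved M S ↔
    ∀ p ∈ S, ∃ U r q, IsParam M U r ∧ q ∈ U ∧ r q = p ∧ 0 < gaussCurvature r q := by
  constructor
  · intro h p hp
    obtain ⟨U, r, h1, q, hq, rfl⟩ := hM p (hS hp)
    exact ⟨U, r, q, h1, hq, rfl, (h1.definite_iff_gauss hq).1 (h U r h1 q hq hp)⟩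
  · intro h U r h1 q hq hp
    obtain ⟨U', r', q', h1', hq', e, hK⟩ := h _ hp
    obtain ⟨W, F, hL⟩ := h1.exists_localEquation hq
    rw [h1.definite_iff hq hL, ← e, ← h1'.definite_iff hq' (e ▸ hL)]
    exact (h1'.definite_iff_gauss hq').2 hK

theorem of_posCurved (h : FI.PosCurved M) : IsSurface M ∧ PositivelyCurved M M := by
  refine ⟨(isSurface_iff M).2 fun p hp => ?_, fun U r h1 q hq hp => ?_⟩
  · obtain ⟨W, F, a1, a2, a3, a4, a5⟩ := h p hp
    exact ⟨W, F, a1, a2, a3, a4, (a5 p ⟨hp, a2⟩).1⟩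
  · obtain ⟨W, F, a1, a2, a3, a4, a5⟩ := h _ hp
    rw [h1.definite_iff hq ⟨a1, a2, a3, a4, fun x hx => (a5 x hx).1⟩]
    exact Or.inl (a5 _ ⟨hp, a2⟩).2

theorem piece (hM : IsSurface M) (hc : IsCompact S) (hS : S ⊆ M) (h : PositivelyCurved M S) :
    H499.PositivelyCurvedPiece S := by
  refine ⟨hc, M, fun p hp => ?_, hS, fun p hp => ?_⟩
  · obtain ⟨U, r, h1, q, hq, rfl⟩ := hM p hp
    exact h1.exists_localEquation hq
  · obtain ⟨U, r, h1, q, hq, rfl⟩ := hM p (hS hp)
    obtain ⟨W, F, hL⟩ := h1.exists_localEquation hq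
    have hn : 0 < ‖fderiv ℝ F (r q)‖ := norm_pos_iff.2 (hL.regular _ ⟨hS hp, hL.mem⟩)
    refine ⟨W, F, hL, ?_⟩
    rcases (h1.definite_iff hq hL).1 (h U r h1 q hq hp) with h2 | h2
    · exact Or.inl fun v hv hv0 => div_pos (h2 v hv hv0) hn
    · exact Or.inr fun v hv hv0 => div_neg_of_neg_of_pos (h2 v hv hv0) hn

theorem restrict_eq_area (hM : IsSurface M) {σ : Measure R3} (hσ : IsSurfaceMeasure M σ)
    (hc : IsCompact S) (hS : S ⊆ M) : σ.restrict S = H499.area S := by
  rw [hM.unique hσ hM.isSurfaceMeasure, Measure.restrict_restrict hc.measurableSet,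
    inter_eq_left.2 hS, H499.area]

theorem estimate_of (hM : IsSurface M) {σ : Measure R3} (hσ : IsSurfaceMeasure M σ)
    (hc : IsCompact S) (hS : S ⊆ M) {p s : ℝ≥0∞} (h : H499.ExtensionEstimate S s p) :
    Estimate S σ s p := by
  obtain ⟨C, hC⟩ := h
  refine ⟨C, fun f hf => ?_⟩
  have e : extension S σ f = H499.E S f := by
    funext x
    rw [extension, H499.E, restrict_eq_area hM hσ hc hS]
  rw [restrict_eq_area hM hσ hc hS] at hf ⊢
  rw [e]
  exact hC f hf

end Vale.Agent.P122W36
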