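import Vale.Agent.P122W36.Local
import Mathlib.MeasureTheory.Measure.Prod
import Mathlib.MeasureTheory.Measure.Real

/-! Covering a Lipschitz image of a bounded planar set by small balls, and the mass of the pairs
of close points. -/

open MeasureTheory Set Topology Filter Metric
open scoped ENNReal NNReal

namespace Vale.Agent.P122W36

/-- `P` is covered by `C / ε²` balls of radius `ε` -/
def Covered (P : Set R3) : Prop :=
  ∃ C : ℝ, 0 < C ∧ ∀ ε ∈ Ioc (0 : ℝ) 1, ∃ T : Finset R3, (T.card : ℝ) ≤ C / ε ^ 2 ∧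
    P ⊆ ⋃ c ∈ T, closedBall c ε

lemma abs_sub_lt_of_floor {a b δ : ℝ} (hδ : 0 < δ) (h : ⌊a / δ⌋ = ⌊b / δ⌋) : |a - b| ≤ δ := by
  have h1 := Int.abs_sub_lt_one_of_floor_eq_floor h
  rw [← sub_div, abs_div, abs_of_pos hδ, div_lt_one hδ] at h1
  exact h1.le

lemma floor_mem {a δ R : ℝ} (hδ : 0 < δ) (h : |a| ≤ R) :
    ⌊a / δ⌋ ∈ Finset.Icc (-(⌈R / δ⌉₊ : ℤ)) (⌈R / δ⌉₊ : ℤ) := by
  have h1 := abs_le.1 h
  have h2 : R / δ ≤ (⌈R / δ⌉₊ : ℝ) := Nat.le_ceil _
  have h3 : a / δ ≤ R / δ := by gcongr; exact h1.2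
  have h4 : -(R / δ) ≤ a / δ := by
    rw [← neg_div]
    gcongr
    exact h1.1
  rw [Finset.mem_Icc]
  constructor
  · rw [Int.le_floor]
    push_cast
    linarith
  · have h5 := Int.floor_le (a / δ)
    have h6 : ((⌊a / δ⌋ : ℤ) : ℝ) ≤ ((⌈R / δ⌉₊ : ℤ) : ℝ) := by
      push_cast
      linarith
    exact_mod_cast h6

lemma covered_image {r : R2 → R3} {Q : Set R2} {R : ℝ} (hR : 0 ≤ R) (hQ : Q ⊆ closedBall 0 R)
    {L : ℝ≥0} (hL : LipschitzOnWith L r Q) : Covered (r '' Q) := by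
  have hL0 : (0 : ℝ) ≤ L := L.coe_nonneg
  refine ⟨(2 * (R * (2 * L + 1)) + 3) ^ 2, by positivity, fun ε hε => ?_⟩
  have hε0 := hε.1
  set δ : ℝ := ε / (2 * L + 1) with hδ
  have hδ0 : 0 < δ := by positivity
  set idx : R2 → ℤ × ℤ := fun u => (⌊u 0 / δ⌋, ⌊u 1 / δ⌋) with hidx
  set N : ℕ := ⌈R / δ⌉₊ with hN
  set J : Finset (ℤ × ℤ) := Finset.Icc (-(N : ℤ)) N ×ˢ Finset.Icc (-(N : ℤ)) N with hJ
  classical
  refine ⟨J.image fun k => r (Function.invFunOn idx Q k), ?_, ?_⟩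
  · have h1 : ((J.image fun k => r (Function.invFunOn idx Q k)).card : ℝ) ≤ J.card := by
      exact_mod_cast Finset.card_image_le
    have h2 : (Finset.Icc (-(N : ℤ)) N).card = 2 * N + 1 := by
      rw [Int.card_Icc]
      omega
    have h3 : (J.card : ℝ) = (2 * N + 1) ^ 2 := by
      rw [hJ, Finset.card_product, h2]
      push_cast
      ring
    have h4 : (N : ℝ) ≤ R / δ + 1 := (Nat.ceil_lt_add_one (by positivity)).le
    have h5 : R / δ = R * (2 * L + 1) / ε := by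
      rw [hδ]
      field_simp
    have h6 : (2 * N + 1 : ℝ) ≤ (2 * (R * (2 * L + 1)) + 3) / ε := by
      have h7 : (3 : ℝ) ≤ 3 / ε := by
        rw [le_div_iff₀ hε0]
        linarith [hε.2]
      rw [add_div, mul_div_assoc, ← h5]
      linarith
    rw [← div_pow]
    refine h1.trans (h3.le.trans ?_)
    gcongr
  · rintro _ ⟨u, hu, rfl⟩
    have hn : ‖u‖ ≤ R := by simpa using hQ hu
    have hk : idx u ∈ J := Finset.mem_product.2
      ⟨floor_mem hδ0 ((PiLp.norm_apply_le u 0).trans hn),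
        floor_mem hδ0 ((PiLp.norm_apply_le u 1).trans hn)⟩
    have hex : ∃ v ∈ Q, idx v = idx u := ⟨u, hu, rfl⟩
    set v := Function.invFunOn idx Q (idx u) with hv
    have hvQ : v ∈ Q := Function.invFunOn_mem hex
    have hve : idx v = idx u := Function.invFunOn_eq hex
    refine mem_iUnion₂.2 ⟨r v, Finset.mem_image_of_mem _ hk, ?_⟩
    have a0 := abs_sub_lt_of_floor hδ0 (congrArg Prod.fst hve).symm
    have a1 := abs_sub_lt_of_floor hδ0 (congrArg Prod.snd hve).symm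
    have hd : dist u v ≤ 2 * δ := by
      rw [EuclideanSpace.dist_eq, Fin.sum_univ_two, Real.dist_eq, Real.dist_eq]
      refine Real.sqrt_le_iff.2 ⟨by positivity, ?_⟩
      nlinarith [abs_nonneg (u 0 - v 0), abs_nonneg (u 1 - v 1)]
    have h1 := hL.dist_le_mul u hu v hvQ
    have h2 : (2 * L + 1) * δ = ε := by
      rw [hδ]
      field_simp
    rw [mem_closedBall]
    nlinarith

lemma IsParam.exists_covered {M : Set R3} {U : Set R2} {r : R2 → R3} {q : R2}
    (h : IsParam M U r) (hq : q ∈ U) : ∃ P ∈ 𝓝[M] (r q), Covered P := by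
  obtain ⟨L, t, ht, hL⟩ := ((h.contDiffAt hq).of_le (m := 1) (by simp)).exists_lipschitzOnWith
  obtain ⟨ρ, hρ, hb⟩ := Metric.mem_nhds_iff.1 (inter_mem ht (h.isOpen.mem_nhds hq))
  obtain ⟨V, hV, hMV⟩ := h.image_open isOpen_ball (hb.trans inter_subset_right)
  refine ⟨r '' ball q ρ, ?_, covered_image (R := ρ + ‖q‖) (by positivity) (fun u hu => ?_)
    (hL.mono (hb.trans inter_subset_left))⟩
  · have h1 : r q ∈ M ∩ V := hMV ▸ mem_image_of_mem r (mem_ball_self hρ)
    rw [hMV]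
    exact inter_mem_nhdsWithin M (hV.mem_nhds h1.2)
  · rw [mem_closedBall_zero_iff]
    have h1 : ‖u - q‖ < ρ := mem_ball_iff_norm.1 hu
    have h2 := norm_add_le (u - q) q
    rw [sub_add_cancel] at h2
    linarith

/-- the pairs of close points have mass at least `c ε²` -/
lemma Covered.lower {P : Set R3} (h : Covered P) (μ : Measure R3) [IsFiniteMeasure μ]
    (hP : μ P ≠ 0) : ∃ c : ℝ, 0 < c ∧ ∀ ε ∈ Ioc (0 : ℝ) 1,
      c * ε ^ 2 ≤ (μ.prod μ).real {z : R3 × R3 | dist z.1 z.2 ≤ 2 * ε} := by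
  obtain ⟨C, hC, hcov⟩ := h
  set a := μ.real P with ha
  have ha0 : 0 < a := ENNReal.toReal_pos hP (measure_ne_top μ P)
  refine ⟨a ^ 2 / (4 * C), by positivity, fun ε hε => ?_⟩
  have hε0 := hε.1
  obtain ⟨T, hT, hPT⟩ := hcov ε hε
  set θ : ℝ := a * ε ^ 2 / (2 * C) with hθ
  have hθ0 : 0 < θ := by positivity
  classical
  set G : Set R3 := ⋃ c ∈ T.filter (fun c => θ ≤ μ.real (closedBall c ε)), closedBall c ε with hG
  set B : Set R3 := ⋃ c ∈ T.filter (fun c => ¬ θ ≤ μ.real (closedBall c ε)), closedBall c ε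
    with hB
  have hGm : MeasurableSet G :=
    Finset.measurableSet_biUnion _ fun c _ => isClosed_closedBall.measurableSet
  have hPGB : P ⊆ G ∪ B := by
    intro x hx
    obtain ⟨c, hc, hxc⟩ := mem_iUnion₂.1 (hPT hx)
    by_cases h1 : θ ≤ μ.real (closedBall c ε)
    · exact Or.inl (mem_iUnion₂.2 ⟨c, Finset.mem_filter.2 ⟨hc, h1⟩, hxc⟩)
    · exact Or.inr (mem_iUnion₂.2 ⟨c, Finset.mem_filter.2 ⟨hc, h1⟩, hxc⟩)
  have hBle : μ.real B ≤ a / 2 := by
    refine (measureReal_biUnion_finset_le _ _).trans ?_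
    refine (Finset.sum_le_card_nsmul _ _ θ fun c hc =>
      (not_le.1 (Finset.mem_filter.1 hc).2).le).trans ?_
    rw [nsmul_eq_mul]
    have h1 : ((T.filter (fun c => ¬ θ ≤ μ.real (closedBall c ε))).card : ℝ) ≤ T.card := by
      exact_mod_cast Finset.card_filter_le _ _
    calc _ ≤ C / ε ^ 2 * θ := by gcongr; exact h1.trans hT
      _ = a / 2 := by rw [hθ]; field_simp
  have hGge : a / 2 ≤ μ.real G := by
    have h1 : a ≤ μ.real (G ∪ B) := measureReal_mono hPGB
    have h2 := measureReal_union_le (μ := μ) G B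
    linarith
  set D : Set (R3 × R3) := {z | dist z.1 z.2 ≤ 2 * ε} with hD
  have hDm : MeasurableSet D :=
    (isClosed_le (continuous_fst.dist continuous_snd) continuous_const).measurableSet
  have key : ENNReal.ofReal θ * μ G ≤ μ.prod μ D := by
    rw [Measure.prod_apply hDm, ← setLIntegral_const]
    refine le_trans (setLIntegral_mono' hGm fun x hx => ?_) (setLIntegral_le_lintegral _ _)
    obtain ⟨c, hc, hxc⟩ := mem_iUnion₂.1 hx
    have h1 : closedBall c ε ⊆ Prod.mk x ⁻¹' D := fun y hy => by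
      have h2 := dist_triangle_right x y c
      have h3 : dist x c ≤ ε := hxc
      have h4 : dist y c ≤ ε := hy
      change dist x y ≤ 2 * ε
      linarith
    refine le_trans ?_ (measure_mono h1)
    exact ENNReal.ofReal_le_of_le_toReal (Finset.mem_filter.1 hc).2
  have h5 := ENNReal.toReal_mono (measure_ne_top _ _) key
  rw [ENNReal.toReal_mul, ENNReal.toReal_ofReal hθ0.le] at h5
  calc a ^ 2 / (4 * C) * ε ^ 2 = θ * (a / 2) := by rw [hθ]; field_simp; ring
    _ ≤ θ * μ.real G := by gcongr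
    _ ≤ _ := h5

end Vale.Agent.P122W36
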