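import Mathlib.Analysis.Calculus.ContDiff.Defs
import Mathlib.Analysis.InnerProductSpace.PiL2
import Mathlib.Analysis.SpecialFunctions.Trigonometric.Basic
import Mathlib.LinearAlgebra.CrossProduct
import Mathlib.LinearAlgebra.Matrix.PosDef
import Mathlib.MeasureTheory.Function.LpSeminorm.Basic
import Mathlib.MeasureTheory.Integral.Bochner.Basic
import Mathlib.MeasureTheory.Measure.Haar.InnerProductSpace

/-! Smooth embedded surfaces in three-dimensional space by their parametrisations: fundamental
forms, Gaussian curvature, surface measure, and the Fourier extension operator. -/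

open MeasureTheory Complex Set Topology
open scoped ENNReal NNReal ContDiff RealInnerProductSpace

namespace Vale.Agent.P122W36

/-- the Euclidean plane -/
abbrev R2 := EuclideanSpace ℝ (Fin 2)

/-- three-dimensional Euclidean space -/
abbrev R3 := EuclideanSpace ℝ (Fin 3)

/-- `r` is a local parametrisation of `M`: a smooth immersion of the open set `U` of the plane
which maps `U` homeomorphically onto a relatively open subset of `M` -/
structure IsParam (M : Set R3) (U : Set R2) (r : R2 → R3) : Prop where
  isOpen : IsOpen U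
  smooth : ContDiffOn ℝ ∞ r U
  immersion : ∀ q ∈ U, Function.Injective (fderiv ℝ r q)
  embedding : IsEmbedding (U.domRestrict r)
  relOpen : ∃ V : Set R3, IsOpen V ∧ r '' U = M ∩ V

/-- `M` is a smooth embedded surface: it is covered by local parametrisations -/
def IsSurface (M : Set R3) : Prop := ∀ p ∈ M, ∃ U r, IsParam M U r ∧ p ∈ r '' U

/-- the derivative of `r` in the direction of the `i`-th coordinate -/
noncomputable def pd (i : Fin 2) (r : R2 → R3) (q : R2) : R3 :=
  fderiv ℝ r q (EuclideanSpace.single i 1)

/-- the first fundamental form `g_ij = ⟨∂_i r, ∂_j r⟩` -/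
noncomputable def firstForm (r : R2 → R3) (q : R2) : Matrix (Fin 2) (Fin 2) ℝ :=
  Matrix.of fun i j => ⟪pd i r q, pd j r q⟫

/-- the cross product `∂_0 r × ∂_1 r` -/
noncomputable def cross (r : R2 → R3) (q : R2) : R3 :=
  WithLp.toLp 2 (crossProduct (pd 0 r q).ofLp (pd 1 r q).ofLp)

/-- the unit normal `n = ∂_0 r × ∂_1 r / |∂_0 r × ∂_1 r|` -/
noncomputable def normal (r : R2 → R3) (q : R2) : R3 := ‖cross r q‖⁻¹ • cross r q

/-- the second fundamental form `h_ij = ⟨∂_i ∂_j r, n⟩` -/
noncomputable def secondForm (r : R2 → R3) (q : R2) : Matrix (Fin 2) (Fin 2) ℝ :=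
  Matrix.of fun i j => ⟪pd i (pd j r) q, normal r q⟫

/-- the Gaussian curvature `K = det h / det g` -/
noncomputable def gaussCurvature (r : R2 → R3) (q : R2) : ℝ :=
  (secondForm r q).det / (firstForm r q).det

/-- the second fundamental form of the surface `M` is definite at every point of `S` -/
def PositivelyCurved (M S : Set R3) : Prop :=
  ∀ U r, IsParam M U r → ∀ q ∈ U, r q ∈ S → (secondForm r q).PosDef ∨ (-secondForm r q).PosDef

/-- `σ` is the induced surface measure of `M`: it is carried by `M`, and in every local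
parametrisation it is `√(det g) du` -/
def IsSurfaceMeasure (M : Set R3) (σ : Measure R3) : Prop :=
  σ Mᶜ = 0 ∧ ∀ U r, IsParam M U r → ∀ A ⊆ U, MeasurableSet A →
    σ (r '' A) = ∫⁻ q in A, ENNReal.ofReal √(firstForm r q).det

/-- the Fourier extension operator of `S` with the surface measure `σ` -/
noncomputable def extension (S : Set R3) (σ : Measure R3) (f : R3 → ℂ) (x : R3) : ℂ :=
  ∫ ξ in S, f ξ * cexp (2 * Real.pi * I * (⟪x, ξ⟫ : ℝ)) ∂σ

/-- the extension operator is bounded from `L^q(S, σ)` to `L^p(ℝ³)` -/
def Estimate (S : Set R3) (σ : Measure R3) (q p : ℝ≥0∞) : Prop :=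
  ∃ C : ℝ≥0, ∀ f : R3 → ℂ, MemLp f q (σ.restrict S) →
    eLpNorm (extension S σ f) p volume ≤ C * eLpNorm f q (σ.restrict S)

end Vale.Agent.P122W36
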