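import Vale.Agent.P122W36.Defs
import Mathlib.Analysis.InnerProductSpace.GramMatrix
import Mathlib.Analysis.Calculus.FDeriv.Symmetric
import Mathlib.Analysis.Calculus.FDeriv.CompCLM
import Mathlib.Analysis.Calculus.ContDiff.Operations

/-! The unit normal and the fundamental forms of a parametrisation. -/

open Set Topology Filter
open scoped ContDiff RealInnerProductSpace Matrix

namespace Vale.Agent.P122W36

variable {r : R2 → R3} {q : R2}

lemma R2_decomp (a : R2) :
    a = a 0 • EuclideanSpace.single 0 1 + a 1 • EuclideanSpace.single 1 1 := by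
  ext i
  fin_cases i <;> simp

lemma fderiv_apply_eq (a : R2) : fderiv ℝ r q a = a 0 • pd 0 r q + a 1 • pd 1 r q := by
  conv_lhs => rw [R2_decomp a]
  simp only [map_add, map_smul, pd]

lemma inner3 (a b : R3) : ⟪a, b⟫ = a 0 * b 0 + a 1 * b 1 + a 2 * b 2 := by
  simp [PiLp.inner_apply, Fin.sum_univ_three, mul_comm]

lemma inner_cross_pd (i : Fin 2) : ⟪cross r q, pd i r q⟫ = 0 := by
  fin_cases i
  · simp [inner3, cross, cross_apply]
    ring
  · simp [inner3, cross, cross_apply]
    ring

lemma inner_cross_self : ⟪cross r q, cross r q⟫ = (firstForm r q).det := by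
  rw [Matrix.det_fin_two]
  simp only [firstForm, Matrix.of_apply, inner3]
  simp [cross, cross_apply]
  ring

lemma firstForm_eq_gram : firstForm r q = Matrix.gram ℝ fun i => pd i r q := by
  ext i j
  simp [firstForm, Matrix.gram_apply]

lemma det_firstForm_pos (h : Function.Injective (fderiv ℝ r q)) : 0 < (firstForm r q).det := by
  rw [firstForm_eq_gram]
  refine (Matrix.posDef_gram_of_linearIndependent ?_).det_pos
  have h1 := (EuclideanSpace.basisFun (Fin 2) ℝ).toBasis.linearIndependent.map'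
    (fderiv ℝ r q : R2 →ₗ[ℝ] R3) (LinearMap.ker_eq_bot.2 h)
  have e : (fun i => pd i r q) = (fderiv ℝ r q : R2 →ₗ[ℝ] R3) ∘
      (EuclideanSpace.basisFun (Fin 2) ℝ).toBasis := by
    funext i
    simp [pd]
  rw [e]
  exact h1

lemma cross_ne_zero (h : Function.Injective (fderiv ℝ r q)) : cross r q ≠ 0 := by
  intro h0
  have := det_firstForm_pos h
  rw [← inner_cross_self, h0, inner_zero_left] at this
  exact lt_irrefl _ this

lemma inner_normal_self (h : Function.Injective (fderiv ℝ r q)) :
    ⟪normal r q, normal r q⟫ = 1 := by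
  have h1 : ‖cross r q‖ ≠ 0 := norm_ne_zero_iff.2 (cross_ne_zero h)
  rw [real_inner_self_eq_norm_sq, normal, norm_smul, norm_inv, norm_norm, inv_mul_cancel₀ h1]
  norm_num

lemma inner_normal_fderiv (a : R2) : ⟪normal r q, fderiv ℝ r q a⟫ = 0 := by
  rw [fderiv_apply_eq, normal, real_inner_smul_left, inner_add_right, real_inner_smul_right,
    real_inner_smul_right, inner_cross_pd, inner_cross_pd]
  ring

/-- the tangent plane and the normal span the space -/
lemma exists_equiv (h : Function.Injective (fderiv ℝ r q)) :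
    ∃ e : (R2 × ℝ) ≃L[ℝ] R3, (e : R2 × ℝ →L[ℝ] R3) =
      (fderiv ℝ r q).coprod (ContinuousLinearMap.toSpanSingleton ℝ (normal r q)) := by
  set D := (fderiv ℝ r q).coprod (ContinuousLinearMap.toSpanSingleton ℝ (normal r q)) with hD
  have hinj : Function.Injective (D : R2 × ℝ →ₗ[ℝ] R3) := by
    rw [injective_iff_map_eq_zero]
    rintro ⟨a, t⟩ hv
    have h1 : fderiv ℝ r q a + t • normal r q = 0 := hv
    have h2 := congrArg (fun v => ⟪normal r q, v⟫) h1
    simp only [inner_add_right, real_inner_smul_right, inner_normal_fderiv, inner_normal_self h,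
      inner_zero_right, zero_add, mul_one] at h2
    rw [h2, zero_smul, add_zero] at h1
    have h3 : a = 0 := h (by rw [h1, map_zero])
    rw [h2, h3]
    rfl
  refine ⟨(LinearMap.linearEquivOfInjective _ hinj (by simp)).toContinuousLinearEquiv, ?_⟩
  ext v <;> rfl

lemma exists_decomp (h : Function.Injective (fderiv ℝ r q)) (v : R3) :
    ∃ a : R2, v = fderiv ℝ r q a + ⟪normal r q, v⟫ • normal r q := by
  obtain ⟨e, he⟩ := exists_equiv h
  obtain ⟨⟨a, t⟩, hz⟩ := e.surjective v
  have h1 : fderiv ℝ r q a + t • normal r q = v := by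
    rw [← hz]
    exact (congrArg (fun L : R2 × ℝ →L[ℝ] R3 => L (a, t)) he).symm
  have h2 := congrArg (fun v => ⟪normal r q, v⟫) h1
  simp only [inner_add_right, real_inner_smul_right, inner_normal_fderiv, inner_normal_self h,
    zero_add, mul_one] at h2
  exact ⟨a, by rw [← h2, h1]⟩

lemma differentiableAt_fderiv {E F : Type*} [NormedAddCommGroup E] [NormedSpace ℝ E]
    [NormedAddCommGroup F] [NormedSpace ℝ F] {f : E → F} {x : E} (h : ContDiffAt ℝ ∞ f x) :
    DifferentiableAt ℝ (fderiv ℝ f) x :=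
  (h.fderiv_right (m := 1) (by norm_cast)).differentiableAt (by simp)

lemma pd_pd (h : ContDiffAt ℝ ∞ r q) (i j : Fin 2) : pd i (pd j r) q =
    fderiv ℝ (fderiv ℝ r) q (EuclideanSpace.single i 1) (EuclideanSpace.single j 1) := by
  have h1 := (differentiableAt_fderiv h).hasFDerivAt.clm_apply
    (hasFDerivAt_const (EuclideanSpace.single j (1 : ℝ) : R2) q)
  have h2 : pd j r = fun y => fderiv ℝ r y (EuclideanSpace.single j 1) := rfl
  rw [pd, h2, h1.fderiv]
  simp

lemma secondForm_symm (h : ContDiffAt ℝ ∞ r q) : secondForm r q 1 0 = secondForm r q 0 1 := by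
  have h1 := h.isSymmSndFDerivAt (by simp; norm_cast)
  simp only [secondForm, Matrix.of_apply, pd_pd h]
  rw [h1.eq]

lemma secondForm_isHermitian (h : ContDiffAt ℝ ∞ r q) : (secondForm r q).IsHermitian := by
  ext i j
  fin_cases i <;> fin_cases j <;> simp [secondForm_symm h]

lemma secondForm_quad (h : ContDiffAt ℝ ∞ r q) (a : R2) :
    a.ofLp ⬝ᵥ (secondForm r q *ᵥ a.ofLp) = ⟪normal r q, fderiv ℝ (fderiv ℝ r) q a a⟫ := by
  conv_rhs => rw [R2_decomp a]
  simp only [dotProduct, Matrix.mulVec, Fin.sum_univ_two, secondForm, Matrix.of_apply, pd_pd h,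
    map_add, map_smul, add_apply, smul_apply,
    inner_add_right, real_inner_smul_right, real_inner_comm (normal r q)]
  ring

/-- definiteness in terms of the quadratic form -/
lemma definite_iff {A : Matrix (Fin 2) (Fin 2) ℝ} (hA : A.IsHermitian) :
    (A.PosDef ∨ (-A).PosDef) ↔ (∀ a : R2, a ≠ 0 → 0 < a.ofLp ⬝ᵥ (A *ᵥ a.ofLp)) ∨
      (∀ a : R2, a ≠ 0 → a.ofLp ⬝ᵥ (A *ᵥ a.ofLp) < 0) := by
  have key : ∀ B : Matrix (Fin 2) (Fin 2) ℝ, B.IsHermitian →
      (B.PosDef ↔ ∀ a : R2, a ≠ 0 → 0 < a.ofLp ⬝ᵥ (B *ᵥ a.ofLp)) := by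
    intro B hB
    rw [Matrix.posDef_iff_dotProduct_mulVec]
    constructor
    · rintro ⟨-, h⟩ a ha
      exact h (x := a.ofLp) (by simpa using ha)
    · intro h
      exact ⟨hB, fun x hx => h (WithLp.toLp 2 x) (by simpa using hx)⟩
  rw [key A hA, key (-A) hA.neg]
  simp only [Matrix.neg_mulVec, dotProduct_neg, neg_pos]

/-- a symmetric two by two matrix is definite if and only if its determinant is positive -/
lemma definite_iff_det {A : Matrix (Fin 2) (Fin 2) ℝ} (hA : A.IsHermitian) :
    (A.PosDef ∨ (-A).PosDef) ↔ 0 < A.det := by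
  constructor
  · rintro (h | h)
    · exact h.det_pos
    · have := h.det_pos
      rwa [Matrix.det_neg, Fintype.card_fin, neg_one_sq, one_mul] at this
  · intro h
    have hs : A 1 0 = A 0 1 := by simpa using hA.apply 0 1
    rw [Matrix.det_fin_two, hs] at h
    rw [definite_iff hA]
    have hq : ∀ a : R2, a ≠ 0 → 0 < A 0 0 * (a.ofLp ⬝ᵥ (A *ᵥ a.ofLp)) := by
      intro a ha
      have e : A 0 0 * (a.ofLp ⬝ᵥ (A *ᵥ a.ofLp)) = (A 0 0 * a 0 + A 0 1 * a 1) ^ 2
          + (A 0 0 * A 1 1 - A 0 1 * A 0 1) * a 1 ^ 2 := by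
        simp only [dotProduct, Matrix.mulVec, Fin.sum_univ_two, hs]
        ring
      rw [e]
      have h00 : A 0 0 ≠ 0 := by
        intro h0
        rw [h0] at h
        nlinarith [sq_nonneg (A 0 1)]
      by_cases h1 : a 1 = 0
      · have h0 : a 0 ≠ 0 := by
          intro h0
          apply ha
          rw [R2_decomp a, h0, h1]
          simp
        have h2 := mul_ne_zero h00 h0
        have h3 : 0 < (A 0 0 * a 0) ^ 2 := by positivity
        rw [h1]
        nlinarith
      · have h2 : 0 < A 0 0 * A 1 1 - A 0 1 * A 0 1 := h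
        have h3 : 0 < a 1 ^ 2 := by positivity
        have h4 := mul_pos h2 h3
        nlinarith [sq_nonneg (A 0 0 * a 0 + A 0 1 * a 1)]
    rcases lt_trichotomy (A 0 0) 0 with h0 | h0 | h0
    · exact Or.inr fun a ha => by nlinarith [hq a ha]
    · rw [h0] at h
      nlinarith [sq_nonneg (A 0 1)]
    · exact Or.inl fun a ha => (mul_pos_iff_of_pos_left h0).1 (hq a ha)

end Vale.Agent.P122W36
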