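import Vale.Agent.P122W36.Lin
import Vale.Agent.P122.H499.Defs
import Mathlib.Analysis.Calculus.InverseFunctionTheorem.ContDiff
import Mathlib.Analysis.Normed.Operator.Banach

/-! A parametrised surface is locally a regular zero set, and its second fundamental form is the
one of the zero set. -/

open Set Topology Filter
open scoped ContDiff RealInnerProductSpace Matrix

namespace Vale.Agent.P122W36

open Vale.Agent.P122.H499 (LocalEquation)

variable {M : Set R3} {U : Set R2} {r : R2 → R3} {q : R2}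

lemma IsParam.contDiffAt (h : IsParam M U r) (hq : q ∈ U) : ContDiffAt ℝ ∞ r q :=
  h.smooth.contDiffAt (h.isOpen.mem_nhds hq)

lemma IsParam.mem (h : IsParam M U r) (hq : q ∈ U) : r q ∈ M := by
  obtain ⟨V, -, hV⟩ := h.relOpen
  have : r q ∈ r '' U := mem_image_of_mem r hq
  rw [hV] at this
  exact this.1

lemma IsParam.injOn (h : IsParam M U r) : InjOn r U :=
  Set.injOn_iff_injective.2 h.embedding.injective

lemma IsParam.image_open (h : IsParam M U r) {U' : Set R2} (hU' : IsOpen U') (hsub : U' ⊆ U) :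
    ∃ V : Set R3, IsOpen V ∧ r '' U' = M ∩ V := by
  obtain ⟨V, hV, hMV⟩ := h.relOpen
  obtain ⟨V₁, hV₁, h1⟩ := h.embedding.isInducing.isOpen_iff.1
    (hU'.preimage (continuous_subtype_val (p := fun x => x ∈ U)))
  refine ⟨V ∩ V₁, hV.inter hV₁, ?_⟩
  rw [← inter_assoc, ← hMV]
  ext y
  constructor
  · rintro ⟨u, hu, rfl⟩
    refine ⟨mem_image_of_mem r (hsub hu), ?_⟩
    have : (⟨u, hsub hu⟩ : U) ∈ U.domRestrict r ⁻¹' V₁ := by
      rw [h1]
      exact hu
    exact this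
  · rintro ⟨⟨u, hu, rfl⟩, hy⟩
    have : (⟨u, hu⟩ : U) ∈ U.domRestrict r ⁻¹' V₁ := hy
    rw [h1] at this
    exact mem_image_of_mem r this

/-- the local equation of a parametrised surface -/
theorem IsParam.exists_localEquation (h : IsParam M U r) (hq : q ∈ U) :
    ∃ (W : Set R3) (F : R3 → ℝ), LocalEquation M (r q) W F := by
  set ν := normal r q with hν
  set Φ : R2 × ℝ → R3 := fun z => r z.1 + z.2 • ν with hΦ
  set D : R2 → R2 × ℝ →L[ℝ] R3 := fun u =>
    (fderiv ℝ r u).coprod (ContinuousLinearMap.toSpanSingleton ℝ ν) with hD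
  have hcd : ∀ z : R2 × ℝ, z.1 ∈ U → ContDiffAt ℝ ∞ Φ z := fun z hz =>
    ((h.contDiffAt hz).comp z contDiffAt_fst).add (contDiffAt_snd.smul contDiffAt_const)
  have hfd : ∀ z : R2 × ℝ, z.1 ∈ U → HasFDerivAt Φ (D z.1) z := by
    intro z hz
    have h1 := ((h.contDiffAt hz).differentiableAt (by simp)).hasFDerivAt.comp z
      (hasFDerivAt_fst (p := z))
    have h2 := (hasFDerivAt_snd (𝕜 := ℝ) (p := z)).smul_const ν
    refine (h1.add h2).congr_fderiv ?_
    ext v <;> simp [hD]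
  obtain ⟨e₀, he₀⟩ := exists_equiv (h.immersion q hq)
  have hDc : ContinuousOn D U := by
    have h1 := h.smooth.continuousOn_fderiv_of_isOpen h.isOpen (by simp)
    have h2 : D = fun u => (fderiv ℝ r u).comp (ContinuousLinearMap.fst ℝ R2 ℝ) +
        (ContinuousLinearMap.toSpanSingleton ℝ ν).comp (ContinuousLinearMap.snd ℝ R2 ℝ) := by
      funext u
      ext v <;> simp [hD]
    rw [h2]
    exact (h1.clm_comp continuousOn_const).add continuousOn_const
  have hO : IsOpen (Prod.fst ⁻¹' (U ∩ D ⁻¹' range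
      (fun e : (R2 × ℝ) ≃L[ℝ] R3 => (e : R2 × ℝ →L[ℝ] R3))) : Set (R2 × ℝ)) :=
    (hDc.isOpen_inter_preimage h.isOpen ContinuousLinearEquiv.isOpen).preimage continuous_fst
  have hfd₀ : HasFDerivAt Φ (e₀ : R2 × ℝ →L[ℝ] R3) (q, 0) := by
    rw [he₀]
    exact hfd (q, 0) hq
  set Θ₀ := (hcd (q, 0) hq).toOpenPartialHomeomorph Φ hfd₀ (by simp) with hΘ₀
  set Θ := Θ₀.restrOpen _ hO with hΘ
  have hc : (Θ : R2 × ℝ → R3) = Φ := rfl
  have hq0 : (q, (0 : ℝ)) ∈ Θ.source :=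
    ⟨(hcd (q, 0) hq).mem_toOpenPartialHomeomorph_source _ _, hq, e₀, he₀⟩
  have hU : ∀ z ∈ Θ.source, z.1 ∈ U := fun z hz => hz.2.1
  have key : ∀ y ∈ Θ.target, ∃ e : (R2 × ℝ) ≃L[ℝ] R3,
      (e : R2 × ℝ →L[ℝ] R3) = D (Θ.symm y).1 ∧
        HasFDerivAt Θ (e : R2 × ℝ →L[ℝ] R3) (Θ.symm y) := by
    intro y hy
    obtain ⟨e, he⟩ := (Θ.map_target hy).2.2
    have he' : (e : R2 × ℝ →L[ℝ] R3) = D (Θ.symm y).1 := he
    exact ⟨e, he', by rw [he', hc]; exact hfd _ (hU _ (Θ.map_target hy))⟩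
  have hU' : IsOpen ((fun u : R2 => (u, (0 : ℝ))) ⁻¹' Θ.source) :=
    Θ.open_source.preimage (continuous_id.prodMk continuous_const)
  obtain ⟨V, hV, hMV⟩ := h.image_open hU' fun u hu => hU _ hu
  have hΦ0 : ∀ u : R2, Θ (u, 0) = r u := fun u => by simp [hc, hΦ]
  have hqV : r q ∈ M ∩ V := hMV ▸ mem_image_of_mem r hq0
  refine ⟨Θ.target ∩ V, fun y => (Θ.symm y).2, Θ.open_target.inter hV,
    ⟨hΦ0 q ▸ Θ.map_source hq0, hqV.2⟩, fun y hy => ?_, ?_, fun y hy => ?_⟩
  · obtain ⟨e, -, he⟩ := key y hy.1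
    exact (contDiffAt_snd.comp y (Θ.contDiffAt_symm hy.1 he
      (hc ▸ hcd _ (hU _ (Θ.map_target hy.1))))).contDiffWithinAt
  · ext y
    constructor
    · rintro ⟨hyM, hy⟩
      refine ⟨hy, ?_⟩
      have : y ∈ r '' ((fun u : R2 => (u, (0 : ℝ))) ⁻¹' Θ.source) := hMV ▸ ⟨hyM, hy.2⟩
      obtain ⟨u, hu, rfl⟩ := this
      change (Θ.symm (r u)).2 = 0
      rw [← hΦ0, Θ.left_inv hu]
    · rintro ⟨hy, hy0⟩
      refine ⟨?_, hy⟩
      have h1 : Θ.symm y = ((Θ.symm y).1, 0) := Prod.ext rfl hy0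
      have h2 := Θ.right_inv hy.1
      rw [h1, hΦ0] at h2
      rw [← h2]
      exact h.mem (hU _ (Θ.map_target hy.1))
  · obtain ⟨e, he', he⟩ := key y hy.2.1
    have h1 := (hasFDerivAt_snd (𝕜 := ℝ) (p := Θ.symm y)).comp y (Θ.hasFDerivAt_symm hy.2.1 he)
    have h2 : fderiv ℝ (fun y => (Θ.symm y).2) y = _ := h1.fderiv
    intro h0
    rw [h2] at h0
    have h3 := congrArg (fun L : R3 →L[ℝ] ℝ => L (e (0, 1))) h0
    simp at h3

/-- the second fundamental form of a parametrisation and the local equation -/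
theorem IsParam.second (h : IsParam M U r) (hq : q ∈ U) {W : Set R3} {F : R3 → ℝ}
    (hL : LocalEquation M (r q) W F) :
    ∃ c : ℝ, c ≠ 0 ∧ (∀ v, fderiv ℝ F (r q) v = c * ⟪normal r q, v⟫) ∧
      ∀ a : R2, c * (a.ofLp ⬝ᵥ (secondForm r q *ᵥ a.ofLp)) =
        -fderiv ℝ (fderiv ℝ F) (r q) (fderiv ℝ r q a) (fderiv ℝ r q a) := by
  have hr := h.contDiffAt hq
  have hF : ContDiffAt ℝ ∞ F (r q) := hL.smooth.contDiffAt (hL.isOpen.mem_nhds hL.mem)
  have e1 : ∀ᶠ u in 𝓝 q, u ∈ U ∧ r u ∈ W :=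
    (h.isOpen.eventually_mem hq).and (hr.continuousAt.eventually (hL.isOpen.eventually_mem hL.mem))
  have e2 : ∀ᶠ u in 𝓝 q, (F ∘ r) u = 0 := e1.mono fun u hu => by
    have : r u ∈ M ∩ W := ⟨h.mem hu.1, hu.2⟩
    rw [hL.zeroSet] at this
    exact this.2
  have e3 : ∀ᶠ u in 𝓝 q, ∀ b : R2, fderiv ℝ F (r u) (fderiv ℝ r u b) = 0 := by
    filter_upwards [e1, e2.eventually_nhds] with u hu hu' b
    have h1 : (F ∘ r) =ᶠ[𝓝 u] fun _ => 0 := hu'
    have h2 := ((hL.smooth.contDiffAt (hL.isOpen.mem_nhds hu.2)).differentiableAt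
      (by simp)).hasFDerivAt.comp u ((h.contDiffAt hu.1).differentiableAt (by simp)).hasFDerivAt
    have h3 := h1.fderiv_eq (𝕜 := ℝ)
    rw [h2.fderiv, fderiv_fun_const] at h3
    exact congrArg (fun L : R2 →L[ℝ] ℝ => L b) h3
  have hc : ∀ v, fderiv ℝ F (r q) v = fderiv ℝ F (r q) (normal r q) * ⟪normal r q, v⟫ := by
    intro v
    obtain ⟨a, ha⟩ := exists_decomp (h.immersion q hq) v
    conv_lhs => rw [ha]
    rw [map_add, e3.self_of_nhds a, zero_add, map_smul, smul_eq_mul, mul_comm]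
  refine ⟨fderiv ℝ F (r q) (normal r q), fun h0 => ?_, hc, fun a => ?_⟩
  · refine hL.regular (r q) ⟨h.mem hq, hL.mem⟩ ?_
    ext v
    rw [hc, h0, zero_mul]
    rfl
  · have h1 := (differentiableAt_fderiv hF).hasFDerivAt.comp q
      (hr.differentiableAt (by simp)).hasFDerivAt
    have h2 := (differentiableAt_fderiv hr).hasFDerivAt.clm_apply (hasFDerivAt_const a q)
    have h3 := h1.clm_apply h2
    have h4 : (fun u => (fderiv ℝ F ∘ r) u (fderiv ℝ r u a)) =ᶠ[𝓝 q] fun _ => 0 :=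
      e3.mono fun u hu => hu a
    have h5 := h4.fderiv_eq (𝕜 := ℝ)
    rw [h3.fderiv, fderiv_fun_const] at h5
    have h6 := congrArg (fun L : R2 →L[ℝ] ℝ => L a) h5
    simp only [Function.comp_apply, add_apply, ContinuousLinearMap.comp_apply,
      ContinuousLinearMap.flip_apply, Pi.zero_apply, zero_apply, map_zero, zero_add] at h6
    rw [secondForm_quad hr, ← hc]
    linarith

/-- definiteness of the second fundamental form, read off from a local equation -/
theorem IsParam.definite_iff (h : IsParam M U r) (hq : q ∈ U) {W : Set R3} {F : R3 → ℝ}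
    (hL : LocalEquation M (r q) W F) :
    ((secondForm r q).PosDef ∨ (-secondForm r q).PosDef) ↔
      (∀ v : R3, v ≠ 0 → fderiv ℝ F (r q) v = 0 → 0 < fderiv ℝ (fderiv ℝ F) (r q) v v) ∨
      (∀ v : R3, v ≠ 0 → fderiv ℝ F (r q) v = 0 → fderiv ℝ (fderiv ℝ F) (r q) v v < 0) := by
  obtain ⟨c, hc0, hc, hQ⟩ := h.second hq hL
  have key : ∀ P : ℝ → Prop,
      (∀ v : R3, v ≠ 0 → fderiv ℝ F (r q) v = 0 → P (fderiv ℝ (fderiv ℝ F) (r q) v v)) ↔
      ∀ a : R2, a ≠ 0 → P (-(c * (a.ofLp ⬝ᵥ (secondForm r q *ᵥ a.ofLp)))) := by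
    intro P
    constructor
    · intro hP a ha
      rw [hQ, neg_neg]
      refine hP _ (fun h0 => ha (h.immersion q hq (by rw [h0, map_zero]))) ?_
      rw [hc, inner_normal_fderiv, mul_zero]
    · intro hP v hv hv0
      obtain ⟨a, ha⟩ := exists_decomp (h.immersion q hq) v
      rw [hc] at hv0
      rw [(mul_eq_zero.1 hv0).resolve_left hc0, zero_smul, add_zero] at ha
      have h1 := hP a (fun h0 => hv (by rw [ha, h0, map_zero]))
      rwa [hQ, neg_neg, ← ha] at h1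
  rw [P122W36.definite_iff (secondForm_isHermitian (h.contDiffAt hq)), key (0 < ·), key (· < 0)]
  rcases lt_or_gt_of_ne hc0 with hc1 | hc1
  · refine or_congr (forall₂_congr fun a _ => ?_) (forall₂_congr fun a _ => ?_)
    · constructor <;> intro h1 <;> nlinarith
    · constructor <;> intro h1 <;> nlinarith
  · rw [or_comm]
    refine or_congr (forall₂_congr fun a _ => ?_) (forall₂_congr fun a _ => ?_)
    · constructor <;> intro h1 <;> nlinarith
    · constructor <;> intro h1 <;> nlinarith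

end Vale.Agent.P122W36
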