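import Vale.Agent.P122W36.Defs
import Mathlib.Geometry.Manifold.SmoothEmbedding
import Mathlib.Geometry.Manifold.MFDeriv.Atlas
import Mathlib.Geometry.Manifold.MFDeriv.FDeriv
import Mathlib.Geometry.Manifold.Instances.Sphere

/-! Images of smooth embeddings of two-dimensional manifolds are smooth embedded surfaces. -/

open Set Topology Filter Manifold
open scoped ContDiff Manifold

namespace Vale.Agent.P122W36

variable {N : Type*} [TopologicalSpace N] [ChartedSpace R2 N] {ι : N → R3}

theorem isSurface_range [IsManifold (𝓡 2) ∞ N] (h1 : ContMDiff (𝓡 2) (𝓡 3) ∞ ι)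
    (h2 : ∀ x, Function.Injective (mfderiv (𝓡 2) (𝓡 3) ι x)) (h3 : IsEmbedding ι) :
    IsSurface (range ι) := by
  rintro _ ⟨x, rfl⟩
  set φ := chartAt R2 x with hφ
  have hs : ContMDiffOn (𝓡 2) (𝓡 2) ∞ φ.symm φ.target := contMDiffOn_chart_symm
  have hsm : ContMDiffOn (𝓡 2) (𝓡 3) ∞ (ι ∘ φ.symm) φ.target := h1.comp_contMDiffOn hs
  have himg : (ι ∘ φ.symm) '' φ.target = ι '' φ.source := by
    rw [image_comp, φ.symm_image_target_eq_source]
  refine ⟨φ.target, ι ∘ φ.symm, ⟨φ.open_target, contMDiffOn_iff_contDiffOn.1 hsm, fun q hq => ?_,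
    h3.comp φ.symm.isOpenEmbedding_restrict.isEmbedding, ?_⟩, ?_⟩
  · have hd : φ.MDifferentiable (𝓡 2) (𝓡 2) := mdifferentiable_chart x
    rw [← mfderiv_eq_fderiv, mfderiv_comp q (h1.mdifferentiableAt (by simp))
      (hd.mdifferentiableAt_symm hq)]
    exact (h2 _).comp (hd.symm.mfderiv_injective hq)
  · obtain ⟨V, hV, hVs⟩ := h3.isInducing.isOpen_iff.1 φ.open_source
    exact ⟨V, hV, by rw [himg, ← hVs, image_preimage_eq_range_inter]⟩
  · rw [himg]
    exact mem_image_of_mem ι (mem_chart_source R2 x)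

theorem injective_mfderiv [IsManifold (𝓡 2) ∞ N] {x : N} (h : IsImmersionAt (𝓡 2) (𝓡 3) ∞ ι x) :
    Function.Injective (mfderiv (𝓡 2) (𝓡 3) ι x) := by
  set φ := h.domChart with hφ
  set ψ := h.codChart with hψ
  have hφd : φ.MDifferentiable (𝓡 2) (𝓡 2) :=
    ⟨(contMDiffOn_of_mem_maximalAtlas h.domChart_mem_maximalAtlas).mdifferentiableOn (by simp),
      (contMDiffOn_symm_of_mem_maximalAtlas h.domChart_mem_maximalAtlas).mdifferentiableOn
        (by simp)⟩
  have hψd : MDifferentiableAt (𝓡 3) (𝓡 3) ψ (ι x) :=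
    ((contMDiffOn_of_mem_maximalAtlas h.codChart_mem_maximalAtlas).mdifferentiableOn
      (by simp)).mdifferentiableAt (ψ.open_source.mem_nhds h.mem_codChart_source)
  set L : R2 →L[ℝ] R3 := (h.equiv : R2 × h.complement →L[ℝ] R3).comp
    (ContinuousLinearMap.inl ℝ R2 h.complement) with hL
  have hLi : Function.Injective L := h.equiv.injective.comp fun a b hab => congrArg Prod.fst hab
  have e1 : ψ ∘ ι =ᶠ[𝓝 x] L ∘ φ := by
    filter_upwards [φ.open_source.mem_nhds h.mem_domChart_source] with y hy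
    have h0 : φ y ∈ (h.domChart.extend (𝓡 2)).target := by simpa using φ.map_source hy
    have h1 := h.writtenInCharts h0
    simp only [OpenPartialHomeomorph.extend_coe, modelWithCornersSelf_coe, Function.comp_apply,
      OpenPartialHomeomorph.extend_coe_symm, modelWithCornersSelf_coe_symm, id_eq] at h1
    rw [← hφ, φ.left_inv hy] at h1
    exact h1
  have e2 := e1.mfderiv_eq (I := 𝓡 2) (I' := 𝓡 3)
  rw [mfderiv_comp x hψd (h.contMDiffAt.mdifferentiableAt (by simp)),
    mfderiv_comp x L.mdifferentiableAt (hφd.mdifferentiableAt h.mem_domChart_source),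
    L.mfderiv_eq] at e2
  have h4 : Function.Injective ((mfderiv (𝓡 3) (𝓡 3) ψ (ι x)).comp (mfderiv (𝓡 2) (𝓡 3) ι x)) := by
    rw [e2]
    exact hLi.comp (hφd.mfderiv_injective h.mem_domChart_source)
  exact Function.Injective.of_comp (f := mfderiv (𝓡 3) (𝓡 3) ψ (ι x)) h4

theorem isSurface_range_of_embedding [IsManifold (𝓡 2) ∞ N]
    (h : IsSmoothEmbedding (𝓡 2) (𝓡 3) ∞ ι) : IsSurface (range ι) :=
  isSurface_range h.contMDiff (fun x => injective_mfderiv (h.isImmersion.isImmersionAt x))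
    h.isEmbedding

theorem isSurface_sphere : IsSurface (Metric.sphere (0 : R3) 1) := by
  have : Fact (Module.finrank ℝ R3 = 2 + 1) := ⟨by simp⟩
  have h := isSurface_range (N := Metric.sphere (0 : R3) 1) (ι := Subtype.val)
    contMDiff_coe_sphere (fun x => injective_mvfderiv_subtypeVal_sphere x) IsEmbedding.subtypeVal
  rwa [Subtype.range_coe] at h

end Vale.Agent.P122W36
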