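import Vale.Agent.P122W36.Cover
import Mathlib.Analysis.SpecialFunctions.Gaussian.FourierTransform

/-! The Fourier transform of a nonzero finite measure on a surface is not in `L^p` for `p ≤ 3`. -/

open MeasureTheory Set Topology Filter Metric Complex
open scoped ENNReal NNReal RealInnerProductSpace ComplexConjugate

namespace Vale.Agent.P122W36

variable (μ : Measure R3)

/-- the Fourier transform of the measure `μ` -/
noncomputable def ft (x : R3) : ℂ := ∫ ξ, cexp (2 * Real.pi * I * (⟪x, ξ⟫ : ℝ)) ∂μ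

lemma norm_char (t : ℝ) : ‖cexp (2 * Real.pi * I * t)‖ = 1 := by
  have : (2 * Real.pi * I * t : ℂ) = ((2 * Real.pi * t : ℝ) : ℂ) * I := by
    push_cast
    ring
  rw [this, Complex.norm_exp_ofReal_mul_I]

lemma integrable_gauss {b : ℝ} (hb : 0 < b) : Integrable fun x : R3 => Real.exp (-b * ‖x‖ ^ 2) := by
  have h := (GaussianFourier.integrable_cexp_neg_mul_sq_norm_add (V := R3) (b := (b : ℂ))
    (by simpa using hb) 0 0).norm
  refine h.congr (Eventually.of_forall fun x => ?_)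
  have : (-(b : ℂ) * (‖x‖ : ℂ) ^ 2 + 0 * (⟪(0 : R3), x⟫ : ℝ)) = ((-b * ‖x‖ ^ 2 : ℝ) : ℂ) := by
    push_cast
    ring
  simp only [this, Complex.norm_exp_ofReal]

lemma rpow_three_halves {ε : ℝ} (hε : 0 < ε) :
    (Real.pi / (Real.pi * ε ^ 2)) ^ ((3 : ℝ) / 2) = (ε ^ 3)⁻¹ := by
  have h1 : Real.pi / (Real.pi * ε ^ 2) = ε⁻¹ ^ (2 : ℝ) := by
    have := Real.pi_pos
    rw [Real.rpow_two]
    field_simp
  rw [h1, ← Real.rpow_mul (by positivity), show (2 : ℝ) * (3 / 2) = (3 : ℕ) by norm_num,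
    Real.rpow_natCast, inv_pow]

lemma integral_gauss {ε : ℝ} (hε : 0 < ε) :
    ∫ x : R3, Real.exp (-(Real.pi * ε ^ 2) * ‖x‖ ^ 2) = (ε ^ 3)⁻¹ := by
  rw [GaussianFourier.integral_rexp_neg_mul_sq_norm (by have := Real.pi_pos; positivity),
    ← rpow_three_halves hε]
  simp

variable [IsFiniteMeasure μ]

lemma norm_ft_le (x : R3) : ‖ft μ x‖ ≤ μ.real univ := by
  have h := norm_integral_le_of_norm_le_const (μ := μ) (C := 1)
    (f := fun ξ : R3 => cexp (2 * Real.pi * I * (⟪x, ξ⟫ : ℝ)))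
    (Eventually.of_forall fun ξ => (norm_char _).le)
  rwa [one_mul] at h

lemma continuous_ft : Continuous (ft μ) := by
  refine continuous_of_dominated (bound := fun _ => 1) (fun x => ?_)
    (fun x => Eventually.of_forall fun ξ => (norm_char _).le) (integrable_const _)
    (Eventually.of_forall fun ξ => ?_)
  · exact Continuous.aestronglyMeasurable (by fun_prop)
  · fun_prop

lemma sq_norm_ft (x : R3) : ((‖ft μ x‖ ^ 2 : ℝ) : ℂ) =
    ∫ z : R3 × R3, cexp (2 * Real.pi * I * (⟪z.1 - z.2, x⟫ : ℝ)) ∂(μ.prod μ) := by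
  rw [Complex.ofReal_pow, ← Complex.mul_conj', ft, ← integral_conj, ← integral_prod_mul]
  refine integral_congr_ae (Eventually.of_forall fun z => ?_)
  simp only [← Complex.exp_conj, ← Complex.exp_add, map_mul, Complex.conj_ofReal, Complex.conj_I,
    map_ofNat, real_inner_comm x, inner_sub_right]
  congr 1
  push_cast
  ring

/-- Plancherel's identity with a Gaussian weight -/
lemma gauss_identity {ε : ℝ} (hε : 0 < ε) :
    ∫ x : R3, ‖ft μ x‖ ^ 2 * Real.exp (-(Real.pi * ε ^ 2) * ‖x‖ ^ 2) =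
      ∫ z : R3 × R3, (ε ^ 3)⁻¹ * Real.exp (-(Real.pi * ‖z.1 - z.2‖ ^ 2 / ε ^ 2)) ∂(μ.prod μ) := by
  have hpi := Real.pi_pos
  have hb : 0 < Real.pi * ε ^ 2 := by positivity
  set F : R3 → R3 × R3 → ℂ := fun x z => cexp (-((Real.pi * ε ^ 2 : ℝ) : ℂ) * (‖x‖ : ℂ) ^ 2
    + 2 * Real.pi * I * (⟪z.1 - z.2, x⟫ : ℝ)) with hF
  have hFe : ∀ x z, F x z = cexp (2 * Real.pi * I * (⟪z.1 - z.2, x⟫ : ℝ)) *
      (Real.exp (-(Real.pi * ε ^ 2) * ‖x‖ ^ 2) : ℝ) := by
    intro x z
    rw [hF, Complex.ofReal_exp, ← Complex.exp_add]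
    push_cast
    congr 1
    ring
  have hint : Integrable (Function.uncurry F) (volume.prod (μ.prod μ)) := by
    refine ((integrable_gauss hb).comp_fst (μ.prod μ)).mono' ?_ (Eventually.of_forall fun w => ?_)
    · refine Continuous.aestronglyMeasurable ?_
      change Continuous fun w : R3 × R3 × R3 => F w.1 w.2
      simp only [hF]
      fun_prop
    · change ‖F w.1 w.2‖ ≤ _
      rw [hFe, norm_mul, norm_char, one_mul, Complex.norm_real, Real.norm_of_nonneg
        (Real.exp_pos _).le]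
  rw [← Complex.ofReal_inj, ← integral_complex_ofReal, ← integral_complex_ofReal]
  have e1 : ∀ x : R3, ((‖ft μ x‖ ^ 2 * Real.exp (-(Real.pi * ε ^ 2) * ‖x‖ ^ 2) : ℝ) : ℂ) =
      ∫ z, F x z ∂(μ.prod μ) := by
    intro x
    rw [Complex.ofReal_mul, sq_norm_ft, ← integral_mul_const]
    simp only [hFe]
  simp only [e1]
  rw [integral_integral_swap hint]
  refine integral_congr_ae (Eventually.of_forall fun z => ?_)
  have h1 := GaussianFourier.integral_cexp_neg_mul_sq_norm_add (V := R3)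
    (b := ((Real.pi * ε ^ 2 : ℝ) : ℂ)) (by rw [Complex.ofReal_re]; exact hb)
    (2 * Real.pi * I) (z.1 - z.2)
  simp only [hF]
  rw [h1, Complex.ofReal_mul _ (Real.exp _), ← rpow_three_halves hε,
    Complex.ofReal_cpow (by positivity), Complex.ofReal_exp]
  congr 2
  · push_cast
    rfl
  · simp
  · have h2 : (ε : ℂ) ≠ 0 := by exact_mod_cast hε.ne'
    have h3 : (Real.pi : ℂ) ≠ 0 := by exact_mod_cast hpi.ne'
    push_cast
    field_simp
    rw [Complex.I_sq]
    ring

lemma gauss_lower {ε : ℝ} (hε : 0 < ε) :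
    (ε ^ 3)⁻¹ * Real.exp (-(4 * Real.pi)) * (μ.prod μ).real {z : R3 × R3 | dist z.1 z.2 ≤ 2 * ε} ≤
      ∫ x : R3, ‖ft μ x‖ ^ 2 * Real.exp (-(Real.pi * ε ^ 2) * ‖x‖ ^ 2) := by
  have hpi := Real.pi_pos
  set D : Set (R3 × R3) := {z | dist z.1 z.2 ≤ 2 * ε} with hD
  have hDm : MeasurableSet D :=
    (isClosed_le (continuous_fst.dist continuous_snd) continuous_const).measurableSet
  rw [gauss_identity μ hε, mul_comm, ← smul_eq_mul, ← integral_indicator_const _ hDm]
  refine integral_mono ((integrable_const _).indicator hDm) ?_ fun z => ?_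
  · refine (integrable_const (ε ^ 3)⁻¹).mono' (Continuous.aestronglyMeasurable (by fun_prop))
      (Eventually.of_forall fun z => ?_)
    rw [Real.norm_of_nonneg (by positivity)]
    refine mul_le_of_le_one_right (by positivity) (Real.exp_le_one_iff.2 ?_)
    rw [neg_nonpos]
    positivity
  · by_cases hz : z ∈ D
    · rw [indicator_of_mem hz]
      have h1 : ‖z.1 - z.2‖ ≤ 2 * ε := by
        rw [← dist_eq_norm]
        exact hz
      have h2 : Real.pi * ‖z.1 - z.2‖ ^ 2 / ε ^ 2 ≤ 4 * Real.pi := by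
        rw [div_le_iff₀ (by positivity)]
        have h3 : ‖z.1 - z.2‖ ^ 2 ≤ (2 * ε) ^ 2 := by gcongr
        nlinarith
      change _ ≤ (ε ^ 3)⁻¹ * Real.exp (-(Real.pi * ‖z.1 - z.2‖ ^ 2 / ε ^ 2))
      gcongr
    · rw [indicator_of_notMem hz]
      positivity

lemma young {a G ε t : ℝ} (ha : 0 ≤ a) (hG : 0 ≤ G) (hG1 : G ≤ 1) (hε : 0 < ε) (ht : 0 < t) :
    ε * (a ^ 2 * G) ≤ min (a ^ 3 / t) (ε * a ^ 2) + t ^ 2 * ε ^ 3 * G := by
  have h0 : 0 ≤ min (a ^ 3 / t) (ε * a ^ 2) := le_min (by positivity) (by positivity)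
  rcases le_total (t * (ε * G)) a with h | h
  · have h1 : ε * (a ^ 2 * G) ≤ a ^ 3 / t := by
      rw [le_div_iff₀ ht]
      calc ε * (a ^ 2 * G) * t = a ^ 2 * (t * (ε * G)) := by ring
        _ ≤ a ^ 2 * a := by gcongr
        _ = a ^ 3 := by ring
    have h2 : ε * (a ^ 2 * G) ≤ ε * a ^ 2 := by
      gcongr
      exact mul_le_of_le_one_right (by positivity) hG1
    have h3 : 0 ≤ t ^ 2 * ε ^ 3 * G := by positivity
    linarith [le_min h1 h2]
  · have h1 : ε * (a ^ 2 * G) ≤ t ^ 2 * ε ^ 3 * G :=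
      calc ε * (a ^ 2 * G) ≤ ε * ((t * (ε * G)) ^ 2 * G) := by gcongr
        _ = t ^ 2 * ε ^ 3 * G * (G * G) := by ring
        _ ≤ t ^ 2 * ε ^ 3 * G := mul_le_of_le_one_right (by positivity) (by nlinarith)
    linarith

theorem not_integrable_cube {P : Set R3} (h : Covered P) (hP : μ P ≠ 0) :
    ¬ Integrable fun x => ‖ft μ x‖ ^ 3 := by
  intro h3
  have hpi := Real.pi_pos
  obtain ⟨c, hc, hlow⟩ := h.lower μ hP
  set κ := Real.exp (-(4 * Real.pi)) * c with hκ
  have hκ0 : 0 < κ := by positivity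
  set t := √(κ / 2) with ht
  have ht0 : 0 < t := Real.sqrt_pos.2 (by positivity)
  have ht2 : t ^ 2 = κ / 2 := Real.sq_sqrt (by positivity)
  have hg := continuous_ft μ
  set m : ℝ → R3 → ℝ := fun ε x => min (‖ft μ x‖ ^ 3 / t) (ε * ‖ft μ x‖ ^ 2) with hm
  have hmc : ∀ ε, AEStronglyMeasurable (m ε) volume := fun ε =>
    Continuous.aestronglyMeasurable (by simp only [hm]; fun_prop)
  have hmb : ∀ ε, 0 < ε → ∀ x, ‖m ε x‖ ≤ ‖ft μ x‖ ^ 3 / t := fun ε hε x => by
    rw [Real.norm_of_nonneg (le_min (by positivity) (by positivity))]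
    exact min_le_left _ _
  have hlim : Tendsto (fun ε => ∫ x, m ε x) (𝓝[>] 0) (𝓝 (∫ _x : R3, (0 : ℝ))) := by
    refine tendsto_integral_filter_of_dominated_convergence (fun x => ‖ft μ x‖ ^ 3 / t)
      (Eventually.of_forall hmc) ?_ (h3.div_const t) (Eventually.of_forall fun x => ?_)
    · filter_upwards [self_mem_nhdsWithin] with ε hε
      exact Eventually.of_forall (hmb ε hε)
    · have h1 : Continuous fun ε => m ε x := by
        simp only [hm]
        fun_prop
      have h2 := (h1.tendsto 0).mono_left (nhdsWithin_le_nhds (s := Ioi 0))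
      have h4 : m 0 x = 0 := by
        simp only [hm, zero_mul]
        exact min_eq_right (by positivity)
      rwa [h4] at h2
  rw [integral_zero] at hlim
  have hev : ∀ᶠ ε in 𝓝[>] (0 : ℝ), κ / 2 ≤ ∫ x, m ε x := by
    filter_upwards [Ioc_mem_nhdsGT (zero_lt_one' ℝ)] with ε hε
    have hε0 := hε.1
    have hb : 0 < Real.pi * ε ^ 2 := by positivity
    have hmi : Integrable (m ε) := (h3.div_const t).mono' (hmc ε) (Eventually.of_forall (hmb ε hε0))
    have hGi := integrable_gauss hb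
    have h1 : ε * ∫ x : R3, ‖ft μ x‖ ^ 2 * Real.exp (-(Real.pi * ε ^ 2) * ‖x‖ ^ 2) ≤
        ∫ x : R3, (m ε x + t ^ 2 * ε ^ 3 * Real.exp (-(Real.pi * ε ^ 2) * ‖x‖ ^ 2)) := by
      rw [← integral_const_mul]
      refine integral_mono_of_nonneg (Eventually.of_forall fun x => by positivity)
        (hmi.add (hGi.const_mul _)) (Eventually.of_forall fun x => ?_)
      refine young (norm_nonneg _) (Real.exp_pos _).le (Real.exp_le_one_iff.2 ?_) hε0 ht0
      rw [neg_mul, neg_nonpos]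
      positivity
    rw [integral_add hmi (hGi.const_mul _), integral_const_mul, integral_gauss hε0, mul_assoc,
      mul_inv_cancel₀ (by positivity), mul_one, ht2] at h1
    have h2 := gauss_lower μ hε0
    have h4 : κ ≤ ε * ((ε ^ 3)⁻¹ * Real.exp (-(4 * Real.pi)) *
        (μ.prod μ).real {z : R3 × R3 | dist z.1 z.2 ≤ 2 * ε}) :=
      calc κ = ε * ((ε ^ 3)⁻¹ * Real.exp (-(4 * Real.pi)) * (c * ε ^ 2)) := by
            rw [hκ]
            field_simp
        _ ≤ _ := by
            gcongr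
            exact hlow ε hε
    have h5 := mul_le_mul_of_nonneg_left h2 hε0.le
    linarith
  have := ge_of_tendsto hlim hev
  linarith

theorem not_memLp {P : Set R3} (h : Covered P) (hP : μ P ≠ 0) {p : ℝ≥0∞} (hp0 : 0 < p)
    (hp : p ≤ 3) : ¬ MemLp (ft μ) p volume := by
  intro hm
  have hpt : p ≠ ∞ := ne_top_of_le_ne_top (by norm_num) hp
  have h1 := hm.integrable_norm_rpow hp0.ne' hpt
  have h2 : p.toReal ≤ 3 := by simpa using ENNReal.toReal_mono (by norm_num) hp
  refine not_integrable_cube μ h hP ((h1.const_mul (μ.real univ ^ (3 - p.toReal))).mono'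
    (Continuous.aestronglyMeasurable ((continuous_ft μ).norm.pow 3))
    (Eventually.of_forall fun x => ?_))
  rw [Real.norm_of_nonneg (by positivity), ← Real.rpow_natCast,
    show ((3 : ℕ) : ℝ) = (3 - p.toReal) + p.toReal by norm_num,
    Real.rpow_add' (norm_nonneg _) (by norm_num)]
  gcongr
  exact norm_ft_le μ x

/-- the estimate fails for `p ≤ 3` -/
theorem not_estimate {M S : Set R3} {σ : Measure R3} (hM : IsSurface M)
    (hS : S ⊆ M) [IsFiniteMeasure (σ.restrict S)] (h0 : σ S ≠ 0) {p q : ℝ≥0∞} (hp0 : 0 < p)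
    (hp : p ≤ 3) : ¬ Estimate S σ q p := by
  rintro ⟨C, hC⟩
  have h1 : ∃ P, Covered P ∧ σ.restrict S P ≠ 0 := by
    by_contra hcon
    push Not at hcon
    apply h0
    rw [← Measure.restrict_apply_self]
    refine measure_null_of_locally_null S fun x hx => ?_
    obtain ⟨U, r, h2, u, hu, rfl⟩ := hM x (hS hx)
    obtain ⟨P, hP, hc⟩ := h2.exists_covered hu
    exact ⟨P, nhdsWithin_mono _ hS hP, hcon P hc⟩
  obtain ⟨P, hc, hP⟩ := h1
  have h3 : MemLp (fun _ : R3 => (1 : ℂ)) q (σ.restrict S) := memLp_const 1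
  have e : extension S σ (fun _ => 1) = ft (σ.restrict S) := by
    funext x
    simp only [extension, ft, one_mul]
  have h4 := hC _ h3
  rw [e] at h4
  exact not_memLp _ hc hP hp0 hp ⟨(continuous_ft _).aestronglyMeasurable,
    h4.trans_lt (ENNReal.mul_lt_top ENNReal.coe_lt_top h3.2)⟩

end Vale.Agent.P122W36
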