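import Vale.Agent.P122W36.Meas

/-! The surface measure is finite on compact pieces and positive on relatively open sets. -/

open MeasureTheory Set Topology Filter Metric
open scoped ENNReal NNReal ContDiff RealInnerProductSpace

namespace Vale.Agent.P122W36

variable {M S : Set R3} {U : Set R2} {r : R2 → R3} {σ : Measure R3}

lemma IsParam.continuousOn_density (h : IsParam M U r) :
    ContinuousOn (fun q => √(firstForm r q).det) U := by
  have h1 := h.smooth.continuousOn_fderiv_of_isOpen h.isOpen (by simp)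
  have h2 : ∀ i, ContinuousOn (pd i r) U := fun i => h1.clm_apply continuousOn_const
  simp only [Matrix.det_fin_two, firstForm, Matrix.of_apply]
  exact ((((h2 0).inner (h2 0)).mul ((h2 1).inner (h2 1))).sub
    (((h2 0).inner (h2 1)).mul ((h2 1).inner (h2 0)))).sqrt

theorem IsSurfaceMeasure.ne_zero (hσ : IsSurfaceMeasure M σ) (hM : IsSurface M) {V : Set R3}
    (hV : IsOpen V) (hne : (M ∩ V).Nonempty) : σ (M ∩ V) ≠ 0 := by
  obtain ⟨p, hp⟩ := hne
  obtain ⟨U, r, h, q, hq, rfl⟩ := hM p hp.1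
  have hA : IsOpen (U ∩ r ⁻¹' V) := h.smooth.continuousOn.isOpen_inter_preimage h.isOpen hV
  intro h0
  have h1 : σ (r '' (U ∩ r ⁻¹' V)) = 0 := by
    refine measure_mono_null ?_ h0
    rintro _ ⟨u, hu, rfl⟩
    exact ⟨h.mem hu.1, hu.2⟩
  rw [hσ.2 U r h _ inter_subset_left hA.measurableSet, lintegral_eq_zero_iff'
    ((h.continuousOn_density.mono inter_subset_left).aemeasurable
      hA.measurableSet).ennreal_ofReal] at h1
  have h2 : ∀ᵐ u ∂(volume.restrict (U ∩ r ⁻¹' V)), False := by
    filter_upwards [h1, ae_restrict_mem hA.measurableSet] with u hu hu'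
    have h3 := Real.sqrt_pos.2 (det_firstForm_pos (h.immersion u hu'.1))
    exact absurd (ENNReal.ofReal_eq_zero.1 hu) (not_le.2 h3)
  rw [eventually_false_iff_eq_bot, ae_eq_bot, Measure.restrict_eq_zero] at h2
  exact hA.measure_ne_zero volume ⟨q, hq, hp.2⟩ h2

theorem IsSurfaceMeasure.finite (hσ : IsSurfaceMeasure M σ) (hM : IsSurface M) (hc : IsCompact S)
    (hS : S ⊆ M) : IsFiniteMeasure (σ.restrict S) := by
  refine isFiniteMeasure_restrict.2 (hc.measure_lt_top_of_nhdsWithin fun x hx => ?_).ne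
  obtain ⟨U, r, h, q, hq, rfl⟩ := hM x (hS hx)
  obtain ⟨ρ, hρ, hb⟩ := Metric.nhds_basis_closedBall.mem_iff.1 (h.isOpen.mem_nhds hq)
  obtain ⟨V, hV, hMV⟩ := h.image_open isOpen_ball (ball_subset_closedBall.trans hb)
  obtain ⟨C, hC⟩ := (isCompact_closedBall q ρ).bddAbove_image (h.continuousOn_density.mono hb)
  refine ⟨r '' ball q ρ, nhdsWithin_mono _ hS ?_, ?_⟩
  · have h1 : r q ∈ M ∩ V := hMV ▸ mem_image_of_mem r (mem_ball_self hρ)
    rw [hMV]
    exact inter_mem_nhdsWithin M (hV.mem_nhds h1.2)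
  · rw [hσ.2 U r h _ (ball_subset_closedBall.trans hb) measurableSet_ball]
    calc ∫⁻ u in ball q ρ, ENNReal.ofReal √(firstForm r u).det
        ≤ ∫⁻ _u in ball q ρ, ENNReal.ofReal C :=
          setLIntegral_mono' measurableSet_ball fun u hu =>
            ENNReal.ofReal_le_ofReal (hC (mem_image_of_mem _ (ball_subset_closedBall hu)))
      _ < ⊤ := by
          rw [setLIntegral_const]
          exact ENNReal.mul_lt_top ENNReal.ofReal_lt_top measure_ball_lt_top

end Vale.Agent.P122W36
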