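import Vale.Agent.P122W36.Local
import Mathlib.Analysis.InnerProductSpace.Projection.FiniteDimensional

/-! Local regular zero sets are smooth embedded surfaces. -/

open Set Topology Filter
open scoped ContDiff RealInnerProductSpace

namespace Vale.Agent.P122W36

lemma exists_proj {l : R3 →L[ℝ] ℝ} (hl : l ≠ 0) :
    ∃ (π : R3 →L[ℝ] R2) (e : R3 ≃L[ℝ] R2 × ℝ), (e : R3 →L[ℝ] R2 × ℝ) = π.prod l := by
  obtain ⟨ν, hν⟩ : ∃ ν, l ν ≠ 0 := by
    by_contra h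
    push Not at h
    exact hl (ContinuousLinearMap.ext h)
  have hν0 : ν ≠ 0 := by
    rintro rfl
    exact hν (map_zero l)
  have : Fact (Module.finrank ℝ R3 = 2 + 1) := ⟨by simp⟩
  have h2 : Module.finrank ℝ (ℝ ∙ ν)ᗮ = Module.finrank ℝ R2 := by
    rw [Submodule.finrank_orthogonal_span_singleton (n := 2) hν0]
    simp
  set j : (ℝ ∙ ν)ᗮ ≃L[ℝ] R2 := ContinuousLinearEquiv.ofFinrankEq h2 with hj
  set π : R3 →L[ℝ] R2 := (j : (ℝ ∙ ν)ᗮ →L[ℝ] R2).comp (ℝ ∙ ν)ᗮ.orthogonalProjectionOnto with hπ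
  have hinj : Function.Injective (π.prod l : R3 →ₗ[ℝ] R2 × ℝ) := by
    rw [injective_iff_map_eq_zero]
    intro v hv
    have h3 : j ((ℝ ∙ ν)ᗮ.orthogonalProjectionOnto v) = 0 := congrArg Prod.fst hv
    have h4 : l v = 0 := congrArg Prod.snd hv
    rw [map_eq_zero_iff _ j.injective, Submodule.orthogonalProjectionOnto_eq_zero_iff,
      Submodule.orthogonal_orthogonal, Submodule.mem_span_singleton] at h3
    obtain ⟨t, rfl⟩ := h3
    rw [map_smul, smul_eq_mul] at h4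
    rw [(mul_eq_zero.1 h4).resolve_right hν, zero_smul]
  refine ⟨π, (LinearMap.linearEquivOfInjective _ hinj (by simp)).toContinuousLinearEquiv, ?_⟩
  ext v <;> rfl

theorem exists_param {M W : Set R3} {p : R3} {F : R3 → ℝ} (hW : IsOpen W) (hp : p ∈ M ∩ W)
    (hF : ContDiffOn ℝ ∞ F W) (hM : M ∩ W = {x | x ∈ W ∧ F x = 0}) (hd : fderiv ℝ F p ≠ 0) :
    ∃ U r, IsParam M U r ∧ p ∈ r '' U := by
  obtain ⟨π, e₀, he₀⟩ := exists_proj hd
  set Ψ : R3 → R2 × ℝ := fun x => (π x, F x) with hΨ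
  set D : R3 → R3 →L[ℝ] R2 × ℝ := fun x => π.prod (fderiv ℝ F x) with hD
  have hcd : ∀ x ∈ W, ContDiffAt ℝ ∞ Ψ x := fun x hx =>
    π.contDiff.contDiffAt.prodMk (hF.contDiffAt (hW.mem_nhds hx))
  have hfd : ∀ x ∈ W, HasFDerivAt Ψ (D x) x := fun x hx =>
    π.hasFDerivAt.prodMk ((hF.contDiffAt (hW.mem_nhds hx)).differentiableAt (by simp)).hasFDerivAt
  have hDc : ContinuousOn D W := by
    have h1 := hF.continuousOn_fderiv_of_isOpen hW (by simp)
    have h2 : D = fun x => (ContinuousLinearMap.inl ℝ R2 ℝ).comp π +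
        (ContinuousLinearMap.inr ℝ R2 ℝ).comp (fderiv ℝ F x) := by
      funext x
      ext v <;> simp [hD]
    rw [h2]
    exact continuousOn_const.add (continuousOn_const.clm_comp h1)
  have hO : IsOpen (W ∩ D ⁻¹' range (fun e : R3 ≃L[ℝ] R2 × ℝ => (e : R3 →L[ℝ] R2 × ℝ))) :=
    hDc.isOpen_inter_preimage hW ContinuousLinearEquiv.isOpen
  have hfd₀ : HasFDerivAt Ψ (e₀ : R3 →L[ℝ] R2 × ℝ) p := by
    rw [he₀]
    exact hfd p hp.2
  set Θ₀ := (hcd p hp.2).toOpenPartialHomeomorph Ψ hfd₀ (by simp) with hΘ₀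
  set Θ := Θ₀.restrOpen _ hO with hΘ
  have hc : (Θ : R3 → R2 × ℝ) = Ψ := rfl
  have hp0 : p ∈ Θ.source :=
    ⟨(hcd p hp.2).mem_toOpenPartialHomeomorph_source _ _, hp.2, e₀, he₀⟩
  have hsW : ∀ x ∈ Θ.source, x ∈ W := fun x hx => hx.2.1
  have key : ∀ y ∈ Θ.target, ∃ e : R3 ≃L[ℝ] R2 × ℝ,
      HasFDerivAt Θ (e : R3 →L[ℝ] R2 × ℝ) (Θ.symm y) := by
    intro y hy
    obtain ⟨e, he⟩ := (Θ.map_target hy).2.2
    have he' : (e : R3 →L[ℝ] R2 × ℝ) = D (Θ.symm y) := he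
    exact ⟨e, by rw [he', hc]; exact hfd _ (hsW _ (Θ.map_target hy))⟩
  set U : Set R2 := (fun u : R2 => (u, (0 : ℝ))) ⁻¹' Θ.target with hU
  set r : R2 → R3 := fun u => Θ.symm (u, 0) with hr
  have hsm : ContDiffOn ℝ ∞ r U := fun u hu => by
    obtain ⟨e, he⟩ := key (u, 0) hu
    exact ((Θ.contDiffAt_symm hu he (hc ▸ hcd _ (hsW _ (Θ.map_target hu)))).comp u
      (contDiffAt_id.prodMk contDiffAt_const)).contDiffWithinAt
  have himg : r '' U = M ∩ Θ.source := by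
    ext y
    constructor
    · rintro ⟨u, hu, rfl⟩
      have h1 : r u ∈ Θ.source := Θ.map_target hu
      have h2 : F (r u) = 0 := congrArg Prod.snd (Θ.right_inv hu)
      have h3 : r u ∈ M ∩ W := hM ▸ ⟨hsW _ h1, h2⟩
      exact ⟨h3.1, h1⟩
    · rintro ⟨hyM, hy⟩
      have h1 : y ∈ M ∩ W := ⟨hyM, hsW _ hy⟩
      rw [hM] at h1
      have h2 : Θ y = (π y, 0) := Prod.ext rfl h1.2
      refine ⟨π y, ?_, ?_⟩
      · change (π y, (0 : ℝ)) ∈ Θ.target
        rw [← h2]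
        exact Θ.map_source hy
      · change Θ.symm (π y, 0) = y
        rw [← h2, Θ.left_inv hy]
  refine ⟨U, r, ⟨Θ.open_target.preimage (continuous_id.prodMk continuous_const), hsm,
    fun u hu => ?_, ?_, Θ.source, Θ.open_source, himg⟩, himg ▸ ⟨hp.1, hp0⟩⟩
  · obtain ⟨e, he⟩ := key (u, 0) hu
    have h1 := (Θ.hasFDerivAt_symm hu he).comp u
      (ContinuousLinearMap.inl ℝ R2 ℝ).hasFDerivAt
    have h2 : fderiv ℝ r u = _ := h1.fderiv
    rw [h2]
    exact e.symm.injective.comp fun a b hab => congrArg Prod.fst hab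
  · refine IsEmbedding.of_comp hsm.continuousOn.domRestrict π.continuous ?_
    have h1 : π ∘ U.domRestrict r = Subtype.val := by
      funext u
      exact congrArg Prod.fst (Θ.right_inv u.2)
    rw [h1]
    exact IsEmbedding.subtypeVal

/-- the surfaces are exactly the local regular zero sets -/
theorem isSurface_iff (M : Set R3) : IsSurface M ↔ ∀ p ∈ M, ∃ (W : Set R3) (F : R3 → ℝ),
    IsOpen W ∧ p ∈ W ∧ ContDiffOn ℝ ∞ F W ∧ M ∩ W = {x | x ∈ W ∧ F x = 0} ∧ fderiv ℝ F p ≠ 0 := by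
  constructor
  · intro h p hp
    obtain ⟨U, r, h1, q, hq, rfl⟩ := h p hp
    obtain ⟨W, F, hL⟩ := h1.exists_localEquation hq
    exact ⟨W, F, hL.isOpen, hL.mem, hL.smooth, hL.zeroSet, hL.regular _ ⟨hp, hL.mem⟩⟩
  · intro h p hp
    obtain ⟨W, F, h1, h2, h3, h4, h5⟩ := h p hp
    exact exists_param h1 ⟨hp, h2⟩ h3 h4 h5

end Vale.Agent.P122W36
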